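import Vale.Agent.H25.P308Count

namespace Vale.Agent.Results.P308.HalfInducedRatio

open SimpleGraph

/-- `Z(G)`: the number of perfect matchings of `G`. -/
noncomputable def numPerfect {V : Type*} (G : SimpleGraph V) : ℕ :=
  {M : G.Subgraph | M.IsPerfectMatching}.ncard

/-- The number of near-perfect matchings of `G`: matchings that leave exactly two vertices
uncovered. -/
noncomputable def numNearPerfect {V : Type*} (G : SimpleGraph V) : ℕ :=
  {M : G.Subgraph | M.IsMatching ∧ M.vertsᶜ.ncard = 2}.ncard

/-- `G` contains a half-induced matching with `m` edges: edges `b i — a i` such that the `b i`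
are pairwise nonadjacent and `b i` is not adjacent to `a j` for `i < j`. -/
def HasHalfInducedMatching {V : Type*} (G : SimpleGraph V) (m : ℕ) : Prop :=
  ∃ a b : Fin m → V, (∀ i, G.Adj (b i) (a i)) ∧ (∀ i j, i ≠ j → ¬ G.Adj (b i) (b j)) ∧
    (∀ i j, i < j → ¬ G.Adj (b i) (a j))

/-- `G` has neighbourhood diversity at most `k`: its vertices can be coloured with `k` colours so
that two vertices of the same colour have the same neighbours apart from themselves. -/
def NeighbourhoodDiversityLE {V : Type*} (G : SimpleGraph V) (k : ℕ) : Prop :=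
  ∃ c : V → Fin k, ∀ x y, c x = c y → ∀ z, z ≠ x → z ≠ y → (G.Adj x z ↔ G.Adj y z)

open Classical in
/-- partner function of a subgraph -/
noncomputable def partner {V : Type*} {G : SimpleGraph V} (M : G.Subgraph) (x : V) : V :=
  if h : ∃ y, M.Adj x y then h.choose else x

theorem partner_adj {V : Type*} {G : SimpleGraph V} {M : G.Subgraph} {x : V} (hx : ∃ y, M.Adj x y) :
    M.Adj x (partner M x) := by
  unfold partner; rw [dif_pos hx]; exact hx.choose_spec

theorem partner_eq {V : Type*} {G : SimpleGraph V} {M : G.Subgraph} (hM : M.IsMatching) {x y : V}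
    (hxy : M.Adj x y) : partner M x = y := by
  have h1 : M.Adj x (partner M x) := partner_adj ⟨y, hxy⟩
  exact (hM (M.edge_vert hxy)).unique h1 hxy

theorem partner_not {V : Type*} {G : SimpleGraph V} {M : G.Subgraph} {x : V}
    (hx : ¬ ∃ y, M.Adj x y) : partner M x = x := by
  unfold partner; rw [dif_neg hx]

theorem partner_inv {V : Type*} [DecidableEq V] {G : SimpleGraph V} {M : G.Subgraph}
    (hM : M.IsMatching) : Vale.Agent.H25.P308.Inv G (partner M) := by
  constructor
  · intro x
    by_cases hx : ∃ y, M.Adj x y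
    · exact partner_eq hM (partner_adj hx).symm
    · rw [partner_not hx, partner_not hx]
  · intro x hx
    by_cases hx' : ∃ y, M.Adj x y
    · exact (partner_adj hx').adj_sub
    · exact absurd (partner_not hx') hx

theorem partner_fix {V : Type*} {G : SimpleGraph V} {M : G.Subgraph}
    (hM : M.IsMatching) (x : V) : partner M x = x ↔ x ∉ M.verts := by
  constructor
  · intro h hx
    obtain ⟨y, hy, -⟩ := hM hx
    have := partner_eq hM hy
    rw [h] at this
    subst this
    exact hy.ne rfl
  · intro h
    apply partner_not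
    rintro ⟨y, hy⟩
    exact h (M.edge_vert hy)

theorem near_le {V : Type*} [DecidableEq V] [Fintype V] (G : SimpleGraph V) :
    numNearPerfect G ≤ (Vale.Agent.H25.P308.N G).ncard := by
  unfold numNearPerfect
  refine Set.ncard_le_ncard_of_injOn partner ?_ ?_ (Set.toFinite _)
  · rintro M ⟨hM, h2⟩
    refine ⟨partner_inv hM, ?_⟩
    rw [Set.ncard_eq_two] at h2
    obtain ⟨u, v, huv, h⟩ := h2
    refine ⟨u, v, huv, ?_⟩
    intro x
    rw [partner_fix hM, ← Set.mem_compl_iff, h]
    simp
  · rintro M ⟨hM, -⟩ M' ⟨hM', -⟩ h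
    have hv : M.verts = M'.verts := by
      ext x
      rw [← not_iff_not, ← partner_fix hM, ← partner_fix hM', h]
    have key : ∀ {N N' : G.Subgraph}, N.IsMatching → N'.IsMatching → partner N = partner N' →
        ∀ x y, N.Adj x y → N'.Adj x y := by
      intro N N' hN hN' he x y hxy
      have h1 := partner_eq hN hxy
      have h2 : partner N' x ≠ x := by
        rw [← he, h1]; exact hxy.ne.symm
      have h3 : ∃ y, N'.Adj x y := by
        by_contra hcon
        exact h2 (partner_not hcon)
      have h4 := partner_adj h3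
      rw [← he, h1] at h4
      exact h4
    refine Subgraph.ext hv ?_
    funext x y
    exact propext ⟨key hM hM' h x y, key hM' hM h.symm x y⟩

/-- the subgraph of a partner function -/
def toSub {V : Type*} (G : SimpleGraph V) (s : V → V) : G.Subgraph where
  verts := {x | ∃ y, G.Adj x y ∧ s x = y ∧ s y = x}
  Adj x y := G.Adj x y ∧ s x = y ∧ s y = x
  adj_sub h := h.1
  edge_vert := fun {x y} h => ⟨y, h⟩
  symm := ⟨fun _ _ h => ⟨h.1.symm, h.2.2, h.2.1⟩⟩

theorem perfect_ge {V : Type*} [DecidableEq V] [Fintype V] (G : SimpleGraph V) :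
    (Vale.Agent.H25.P308.P G).ncard ≤ numPerfect G := by
  unfold numPerfect
  refine Set.ncard_le_ncard_of_injOn (toSub G) ?_ ?_ (Set.toFinite _)
  · rintro s ⟨hs, hs'⟩
    have hadj : ∀ x, (toSub G s).Adj x (s x) := fun x => ⟨hs.2 x (hs' x), rfl, hs.1 x⟩
    constructor
    · intro x _
      refine ⟨s x, hadj x, ?_⟩
      rintro y ⟨-, h, -⟩
      exact h.symm
    · intro x
      exact ⟨s x, hadj x⟩
  · rintro s ⟨hs, hs'⟩ s' ⟨ht, ht'⟩ h
    funext x
    have hadj : (toSub G s).Adj x (s x) := ⟨hs.2 x (hs' x), rfl, hs.1 x⟩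
    rw [h] at hadj
    exact hadj.2.1.symm

theorem exists_P {V : Type*} [DecidableEq V] (G : SimpleGraph V)
    (h : ∃ M : G.Subgraph, M.IsPerfectMatching) : (Vale.Agent.H25.P308.P G).Nonempty := by
  obtain ⟨M, hM, hs⟩ := h
  refine ⟨partner M, partner_inv hM, ?_⟩
  intro v hv
  rw [partner_fix hM] at hv
  exact hv (hs v)

/-- **Main result.** -/
theorem result (k : ℕ) {V : Type*} [Fintype V] (G : SimpleGraph V) :
    ((∃ M : G.Subgraph, M.IsPerfectMatching) → ¬ HasHalfInducedMatching G (k + 1) →
      numNearPerfect G ≤ (4 * k + 1) * (Fintype.card V) ^ (8 * k + 1) * numPerfect G) ∧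
    (G.indepNum ≤ k → ¬ HasHalfInducedMatching G (k + 1)) ∧
    (NeighbourhoodDiversityLE G k → ¬ HasHalfInducedMatching G (k + 1)) := by
  classical
  refine ⟨?_, ?_, ?_⟩
  · intro h1 h2
    refine (near_le G).trans ?_
    refine (Vale.Agent.H25.P308.card_N G k h2 (exists_P G h1)).trans ?_
    exact Nat.mul_le_mul_left _ (perfect_ge G)
  · rintro hα ⟨a, b, hab, hbb, hba⟩
    have hinj : Function.Injective b := by
      intro i j hij
      by_contra hne
      rcases lt_or_gt_of_ne hne with h | h
      · apply hba i j h; rw [hij]; exact hab j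
      · apply hba j i h; rw [← hij]; exact hab i
    have hind : G.IsIndepSet ((Finset.univ.image b : Finset V) : Set V) := by
      intro x hx y hy hxy
      simp only [Finset.coe_image, Finset.coe_univ, Set.image_univ, Set.mem_range] at hx hy
      obtain ⟨i, rfl⟩ := hx
      obtain ⟨j, rfl⟩ := hy
      exact hbb i j (fun h => hxy (by rw [h]))
    have hc := hind.card_le_indepNum
    rw [Finset.card_image_of_injective _ hinj, Finset.card_univ, Fintype.card_fin] at hc
    omega
  · rintro ⟨c, hc⟩ ⟨a, b, hab, hbb, hba⟩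
    obtain ⟨i, j, hne, hij⟩ := Fintype.exists_ne_map_eq_of_card_lt (fun i => c (b i)) (by simp)
    have key : ∀ i j : Fin (k+1), i < j → c (b i) = c (b j) → False := by
      intro i j hlt he
      apply hba i j hlt
      refine (hc (b i) (b j) he (a j) ?_ ?_).2 (hab j)
      · intro h
        apply hbb j i (ne_of_gt hlt)
        rw [← h]; exact hab j
      · exact (hab j).ne.symm
    rcases lt_or_gt_of_ne hne with h | h
    · exact key i j h hij
    · exact key j i h hij.symm

end Vale.Agent.Results.P308.HalfInducedRatio
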